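import Mathlib

/-!
Partition of a dense weighted graph into few clusters without sparse cuts, and a spanning forest of
bounded degree inside the clusters.
-/

namespace Vale.Agent.P061Dense

open Finset

variable {V : Type*} [Fintype V] [DecidableEq V]

/-- The number of edge copies between `A` and `B`. -/
def between (w : V → V → ℕ) (A B : Finset V) : ℕ :=
  ∑ u ∈ A, ∑ v ∈ B, w u v

/-- The class of the label `i`. -/
def cls (f : V → V) (i : V) : Finset V :=
  univ.filter fun v => f v = i

omit [DecidableEq V] in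
theorem sum_indicator_pair (A B : Finset V) (X : V → V → ℝ) [DecidableEq V] :
    (∑ u, ∑ v, if u ∈ A ∧ v ∈ B then X u v else 0) = ∑ u ∈ A, ∑ v ∈ B, X u v := by
  simp only [ite_and, Finset.sum_ite_irrel, Finset.sum_const_zero]
  rw [Finset.sum_ite_mem, univ_inter]
  refine Finset.sum_congr rfl fun u _ => ?_
  rw [Finset.sum_ite_mem, univ_inter]

theorem sum_indicator_sym (A B : Finset V) (hAB : Disjoint A B) (X : V → V → ℝ)
    (hX : ∀ u v, X u v = X v u) :
    (∑ u, ∑ v, if (u ∈ A ∧ v ∈ B) ∨ (u ∈ B ∧ v ∈ A) then X u v else 0)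
      = 2 * ∑ u ∈ A, ∑ v ∈ B, X u v := by
  have h : ∀ u v, (if (u ∈ A ∧ v ∈ B) ∨ (u ∈ B ∧ v ∈ A) then X u v else 0)
      = (if u ∈ A ∧ v ∈ B then X u v else 0) + (if u ∈ B ∧ v ∈ A then X u v else 0) := by
    intro u v
    by_cases h1 : u ∈ A ∧ v ∈ B
    · have h2 : ¬ (u ∈ B ∧ v ∈ A) := fun h2 => Finset.disjoint_left.1 hAB h1.1 h2.1
      simp [h1, h2]
    · simp [h1]
  simp only [h, Finset.sum_add_distrib, sum_indicator_pair]
  rw [two_mul]
  congr 1
  rw [Finset.sum_comm]
  exact Finset.sum_congr rfl fun u _ => Finset.sum_congr rfl fun v _ => hX v u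

theorem exists_clusters (w : V → V → ℕ) (hsym : ∀ u v, w u v = w v u) (β : ℝ) :
    ∃ f : V → V,
      (∀ i S, S ⊆ cls f i →
        β * (S.card * (cls f i \ S).card) ≤ between w S (cls f i \ S)) ∧
      (∀ i j, i ≠ j → (between w (cls f i) (cls f j) : ℝ) ≤ β * ((cls f i).card * (cls f j).card)) := by
  let Φ : (V → V) → ℝ := fun f => ∑ u, ∑ v, if f u = f v then β else (w u v : ℝ)
  obtain ⟨f, -, hf⟩ := Finset.exists_min_image (univ : Finset (V → V)) Φ
    ⟨id, mem_univ _⟩
  refine ⟨f, fun i S hS => ?_, fun i j hij => ?_⟩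
  · rcases S.eq_empty_or_nonempty with rfl | hSne
    · simp [between]
    rcases (cls f i \ S).eq_empty_or_nonempty with hT | hTne
    · simp [hT, between]
    obtain ⟨j, hj⟩ : ∃ j, ∀ v, f v ≠ j := by
      by_contra hno
      push Not at hno
      have hsurj : Function.Surjective f := hno
      have hinj : Function.Injective f := Finite.injective_iff_surjective.2 hsurj
      obtain ⟨a, ha⟩ := hSne
      obtain ⟨b, hb⟩ := hTne
      rw [mem_sdiff] at hb
      have : f a = f b := by
        rw [(mem_filter.1 (hS ha)).2, (mem_filter.1 hb.1).2]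
      exact hb.2 (hinj this ▸ ha)
    let f' : V → V := fun v => if v ∈ S then j else f v
    have hdiff : ∀ u v, (if f' u = f' v then β else (w u v : ℝ))
        = (if f u = f v then β else (w u v : ℝ)) +
          (if (u ∈ S ∧ v ∈ cls f i \ S) ∨ (u ∈ cls f i \ S ∧ v ∈ S) then (w u v : ℝ) - β else 0) := by
      intro u v
      have hSi : ∀ x ∈ S, f x = i := fun x hx => (mem_filter.1 (hS hx)).2
      by_cases hu : u ∈ S <;> by_cases hv : v ∈ S
      · simp [f', hu, hv, hSi u hu, hSi v hv]
      · by_cases hvi : f v = i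
        · simp [f', hu, hv, hSi u hu, hvi, cls, (hj v).symm, show (j = i) = False by
            simp only [eq_iff_iff, iff_false]; exact fun h => hj v (hvi.trans h.symm)]
        · simp [f', hu, hv, hSi u hu, cls, (hj v).symm, Ne.symm hvi, hvi]
      · by_cases hui : f u = i
        · simp [f', hu, hv, hSi v hv, hui, cls, show (i = j) = False by
            simp only [eq_iff_iff, iff_false]; exact fun h => hj u (hui.trans h)]
        · simp [f', hu, hv, hSi v hv, cls, hj u, hui]
      · simp [f', hu, hv]
    have key := hf f' (mem_univ _)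
    simp only [Φ, hdiff, Finset.sum_add_distrib] at key
    rw [sum_indicator_sym S _ disjoint_sdiff (fun u v => (w u v : ℝ) - β)
      (fun u v => by rw [hsym])] at key
    simp only [Finset.sum_sub_distrib, Finset.sum_const, nsmul_eq_mul] at key
    rw [between]
    push_cast
    nlinarith
  · let f' : V → V := fun v => if f v = j then i else f v
    have hdiff : ∀ u v, (if f' u = f' v then β else (w u v : ℝ))
        = (if f u = f v then β else (w u v : ℝ)) +
          (if (u ∈ cls f i ∧ v ∈ cls f j) ∨ (u ∈ cls f j ∧ v ∈ cls f i) then β - (w u v : ℝ)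
            else 0) := by
      intro u v
      by_cases hu : f u = j <;> by_cases hv : f v = j
      · simp [f', hu, hv, cls, hij.symm]
      · by_cases hvi : f v = i
        · simp [f', hu, hvi, cls, hij, hij.symm]
        · simp [f', hu, hv, cls, Ne.symm hv, Ne.symm hvi, hvi]
      · by_cases hui : f u = i
        · simp [f', hv, hui, cls, hij]
        · simp [f', hu, hv, cls, hui]
      · simp [f', hu, hv, cls]
    have key := hf f' (mem_univ _)
    simp only [Φ, hdiff, Finset.sum_add_distrib] at key
    have hd : Disjoint (cls f i) (cls f j) := by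
      rw [Finset.disjoint_left]
      intro x hx hx'
      exact hij ((mem_filter.1 hx).2.symm.trans (mem_filter.1 hx').2)
    rw [sum_indicator_sym _ _ hd (fun u v => β - (w u v : ℝ)) (fun u v => by rw [hsym])] at key
    simp only [Finset.sum_sub_distrib, Finset.sum_const, nsmul_eq_mul] at key
    rw [between]
    push_cast
    nlinarith

theorem cls_large (w : V → V → ℕ) (f : V → V) {μ : ℕ} (hμ : ∀ u v, w u v ≤ μ) {ε β : ℝ}
    (hβ : 0 ≤ β) (hβε : 2 * β < ε * μ)
    (hdeg : ∀ u, ε * μ * Fintype.card V ≤ (∑ v, w u v : ℕ))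
    (hmerge : ∀ i j, i ≠ j →
      (between w (cls f i) (cls f j) : ℝ) ≤ β * ((cls f i).card * (cls f j).card))
    (i : V) (hi : (cls f i).Nonempty) : ε * Fintype.card V < 2 * ((cls f i).card : ℝ) := by
  by_contra hle
  push Not at hle
  set n : ℝ := (Fintype.card V : ℝ)
  set A := cls f i
  have ha : (0 : ℝ) < A.card := by exact_mod_cast hi.card_pos
  have hn : (0 : ℝ) < n := by
    have : 0 < Fintype.card V := lt_of_lt_of_le hi.card_pos (card_le_univ _)
    show (0 : ℝ) < (Fintype.card V : ℝ)
    exact_mod_cast this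
  have htot : ((A.card : ℝ) * (ε * μ * n)) ≤ (∑ j, between w A (cls f j) : ℕ) := by
    have h1 : ∀ u, ∑ j, ∑ v ∈ cls f j, w u v = ∑ v, w u v := fun u =>
      Finset.sum_fiberwise univ f (fun v => w u v)
    have h2 : (∑ j, between w A (cls f j)) = ∑ u ∈ A, ∑ v, w u v := by
      simp only [between]
      rw [Finset.sum_comm]
      exact Finset.sum_congr rfl fun u _ => h1 u
    rw [h2]
    push_cast
    calc (A.card : ℝ) * (ε * μ * n) = ∑ _u ∈ A, ε * μ * n := by simp
      _ ≤ _ := Finset.sum_le_sum fun u _ => by exact_mod_cast hdeg u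
  have hbound : ((∑ j, between w A (cls f j) : ℕ) : ℝ) ≤
      μ * (A.card * A.card) + β * A.card * n := by
    rw [← Finset.add_sum_erase univ _ (mem_univ i), Nat.cast_add, Nat.cast_sum]
    refine add_le_add ?_ ?_
    · have : between w A A ≤ μ * (A.card * A.card) := by
        calc between w A A ≤ ∑ _u ∈ A, ∑ _v ∈ A, μ :=
              Finset.sum_le_sum fun u _ => Finset.sum_le_sum fun v _ => hμ u v
          _ = _ := by simp; ring
      exact_mod_cast this
    · calc ∑ j ∈ univ.erase i, (between w A (cls f j) : ℝ)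
          ≤ ∑ j ∈ univ.erase i, β * A.card * (cls f j).card :=
            Finset.sum_le_sum fun j hj => (hmerge i j (ne_of_mem_erase hj).symm).trans_eq (by ring)
        _ ≤ ∑ j, β * A.card * (cls f j).card :=
            Finset.sum_le_univ_sum_of_nonneg fun j => by positivity
        _ = β * A.card * n := by
            rw [← Finset.mul_sum, ← Nat.cast_sum]
            congr 2
            exact (Finset.card_eq_sum_card_fiberwise (f := f) (s := univ) (t := univ)
              fun x _ => mem_univ _).symm
  have h1 := htot.trans hbound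
  have h2 : (A.card : ℝ) * (ε * μ * n) ≤ (A.card : ℝ) * (μ * A.card + β * n) :=
    h1.trans_eq (by ring)
  have h3 := le_of_mul_le_mul_left h2 ha
  have h4 : (μ : ℝ) * A.card ≤ μ * (ε * n / 2) :=
    mul_le_mul_of_nonneg_left (by linarith) (Nat.cast_nonneg _)
  have h5 : (2 * β) * n < (ε * μ) * n := mul_lt_mul_of_pos_right hβε hn
  nlinarith

end Vale.Agent.P061Dense
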