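import Mathlib
import Vale.Agent.P061Dense.Clusters

/-!
A spanning forest with bounded degree that connects every cluster, and its extension to a tree.
-/

namespace Vale.Agent.P061Dense

open Finset SimpleGraph

open scoped Classical

variable {V : Type*} [Fintype V] [DecidableEq V]

theorem exists_cluster_forest (w : V → V → ℕ) (hsym : ∀ u v, w u v = w v u) {μ : ℕ}
    (hμ : ∀ u v, w u v ≤ μ) (f : V → V) {β : ℝ} {D : ℕ} (hD : 4 * (μ : ℝ) < β * D)
    (hsplit : ∀ i S, S ⊆ cls f i → β * (S.card * (cls f i \ S).card) ≤ between w S (cls f i \ S)) :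
    ∃ F : SimpleGraph V, F.IsAcyclic ∧
      (∀ u v, F.Adj u v → 0 < w u v ∧ f u = f v) ∧
      (∀ v, (univ.filter fun x => F.Adj v x).card ≤ D) ∧
      (∀ u v, f u = f v → F.Reachable u v) := by
  classical
  let P : SimpleGraph V → Prop := fun F =>
    F.IsAcyclic ∧ (∀ u v, F.Adj u v → 0 < w u v ∧ f u = f v) ∧
      (∀ v, (univ.filter fun x => F.Adj v x).card ≤ D)
  obtain ⟨F, hF, hFmax⟩ := (Set.toFinite {F | P F}).exists_maximal
    ⟨⊥, isAcyclic_bot, fun _ _ h => absurd h (by simp), fun _ => by simp⟩
  refine ⟨F, hF.1, hF.2.1, hF.2.2, ?_⟩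
  intro a b hab
  by_contra hno
  set i := f a
  set S := (cls f i).filter fun x => F.Reachable a x with hS
  set T := cls f i \ S with hT
  have haS : a ∈ S := by simp [hS, cls, i]
  have hbT : b ∈ T := by simp [hT, hS, cls, i, hab, hno]
  have hclosed : ∀ x ∈ S, ∀ y, F.Adj x y → y ∈ S := by
    intro x hx y hxy
    simp only [hS, mem_filter, cls, mem_univ, true_and] at hx ⊢
    exact ⟨(hF.2.1 x y hxy).2.symm.trans hx.1, hx.2.trans hxy.reachable⟩
  have hclosedT : ∀ x ∈ T, ∀ y, F.Adj x y → y ∈ T := by
    intro x hx y hxy
    simp only [hT, hS, mem_sdiff, mem_filter, cls, mem_univ, true_and] at hx ⊢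
    refine ⟨(hF.2.1 x y hxy).2.symm.trans hx.1, fun h => hx.2 ⟨hx.1, h.2.trans hxy.symm.reachable⟩⟩
  -- saturated vertices
  have hsat : ∀ X : Finset V, X.Nonempty → (∀ x ∈ X, ∀ y, F.Adj x y → y ∈ X) →
      ((X.filter fun x => D ≤ (univ.filter fun y => F.Adj x y).card).card : ℝ) * D
        ≤ 2 * X.card := by
    intro X hX hXc
    let G := F.induce (X : Set V)
    have hdegsum : ∑ x ∈ X, (univ.filter fun y => F.Adj x y).card ≤ 2 * X.card := by
      have h1 : ∑ x : (X : Set V), G.degree x = 2 * G.edgeFinset.card :=
        G.sum_degrees_eq_twice_card_edges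
      have h2 : G.edgeFinset.card ≤ X.card := by
        have hac : G.IsAcyclic := hF.1.induce _
        haveI : Nonempty (X : Set V) := ⟨⟨_, hX.choose_spec⟩⟩
        obtain ⟨T', hle, -, hT'⟩ := (show (⊤ : SimpleGraph (X : Set V)).Connected from
          connected_top).exists_isTree_le_of_le_of_isAcyclic le_top hac
        have := hT'.card_edgeFinset
        simp only [Finset.coe_sort_coe, Fintype.card_coe] at this
        have h3 : G.edgeFinset.card ≤ T'.edgeFinset.card := Finset.card_le_card (edgeFinset_mono hle)
        omega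
      have h3 : ∀ x : (X : Set V), G.degree x = (univ.filter fun y => F.Adj x y).card := by
        intro x
        rw [← card_neighborFinset_eq_degree]
        refine Finset.card_bij (fun y _ => (y : V)) (fun y hy => ?_) (fun y _ z _ h => Subtype.ext h)
          (fun y hy => ?_)
        · rw [mem_neighborFinset] at hy
          simpa [G] using hy
        · simp only [mem_filter, mem_univ, true_and] at hy
          exact ⟨⟨y, hXc x x.2 y hy⟩, by simpa [G] using hy, rfl⟩
      simp only [h3] at h1
      have h4 : ∑ x ∈ X, (univ.filter fun y => F.Adj x y).card = 2 * G.edgeFinset.card := by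
        rw [← h1]
        exact (Finset.sum_coe_sort X (fun x => (univ.filter fun y => F.Adj x y).card)).symm
      omega
    have h5 : (X.filter fun x => D ≤ (univ.filter fun y => F.Adj x y).card).card * D
        ≤ ∑ x ∈ X, (univ.filter fun y => F.Adj x y).card := by
      refine le_trans ?_ (Finset.sum_le_sum_of_subset (Finset.filter_subset
        (fun x => D ≤ (univ.filter fun y => F.Adj x y).card) X))
      rw [← smul_eq_mul]
      exact Finset.card_nsmul_le_sum _ _ _ fun x hx => (mem_filter.1 hx).2
    exact_mod_cast h5.trans hdegsum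
  have hedge : ∃ u ∈ S, ∃ v ∈ T, 0 < w u v ∧ (univ.filter fun y => F.Adj u y).card < D ∧
      (univ.filter fun y => F.Adj v y).card < D := by
    by_contra hcon
    push Not at hcon
    set SS := S.filter fun x => D ≤ (univ.filter fun y => F.Adj x y).card
    set TT := T.filter fun x => D ≤ (univ.filter fun y => F.Adj x y).card
    have hterm : ∀ u ∈ S, ∀ v ∈ T, w u v ≤
        (if u ∈ SS then μ else 0) + (if v ∈ TT then μ else 0) := by
      intro u hu v hv
      rcases Nat.eq_zero_or_pos (w u v) with h0 | hpos
      · simp [h0]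
      · by_cases h1 : u ∈ SS
        · rw [if_pos h1]; exact le_add_right (hμ u v)
        · have h2 : (univ.filter fun y => F.Adj u y).card < D := by
            by_contra h; exact h1 (mem_filter.2 ⟨hu, not_lt.1 h⟩)
          have h3 : v ∈ TT := mem_filter.2 ⟨hv, hcon u hu v hv hpos h2⟩
          rw [if_pos h3]; exact le_add_left (hμ u v)
    have hb : between w S T ≤ μ * (SS.card * T.card + S.card * TT.card) := by
      refine (Finset.sum_le_sum fun u hu => Finset.sum_le_sum fun v hv => hterm u hu v hv).trans ?_
      simp only [Finset.sum_add_distrib, Finset.sum_const, smul_eq_mul]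
      have e1 : ∑ u ∈ S, T.card * (if u ∈ SS then μ else 0) = T.card * (SS.card * μ) := by
        rw [← Finset.mul_sum, Finset.sum_ite_mem,
          Finset.inter_eq_right.2 (Finset.filter_subset _ _), Finset.sum_const, smul_eq_mul]
      have e2 : S.card * ∑ v ∈ T, (if v ∈ TT then μ else 0) = S.card * (TT.card * μ) := by
        rw [Finset.sum_ite_mem, Finset.inter_eq_right.2 (Finset.filter_subset _ _),
          Finset.sum_const, smul_eq_mul]
      rw [e1, e2]
      exact le_of_eq (by ring)
    have hb' : (between w S T : ℝ) ≤ μ * (SS.card * T.card + S.card * TT.card) := by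
      exact_mod_cast hb
    have h1 := hsplit i S (Finset.filter_subset _ _)
    have hs : (0 : ℝ) < S.card := by exact_mod_cast (Finset.card_pos.2 ⟨a, haS⟩)
    have ht : (0 : ℝ) < T.card := by exact_mod_cast (Finset.card_pos.2 ⟨b, hbT⟩)
    have h2 := mul_le_mul_of_nonneg_left (hsat S ⟨a, haS⟩ hclosed)
      (show (0 : ℝ) ≤ μ * T.card by positivity)
    have h3 := mul_le_mul_of_nonneg_left (hsat T ⟨b, hbT⟩ hclosedT)
      (show (0 : ℝ) ≤ μ * S.card by positivity)
    have h4 := mul_le_mul_of_nonneg_right (h1.trans hb') (Nat.cast_nonneg (α := ℝ) D)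
    have h5 := mul_lt_mul_of_pos_right hD (mul_pos hs ht)
    nlinarith
  obtain ⟨u, hu, v, hv, hw, hdu, hdv⟩ := hedge
  have huv : ¬ F.Reachable u v := by
    intro h
    have hu' := (mem_filter.1 hu)
    rw [hT, mem_sdiff] at hv
    exact hv.2 (mem_filter.2 ⟨hv.1, hu'.2.trans h⟩)
  have hne : u ≠ v := fun h => huv (h ▸ Reachable.refl _)
  have hP : P (F ⊔ edge u v) := by
    refine ⟨hF.1.sup_edge_of_not_reachable huv, ?_, ?_⟩
    · intro x y hxy
      rcases hxy with h | h
      · exact hF.2.1 x y h
      · rw [edge_adj] at h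
        have hfu : f u = i := (mem_filter.1 (mem_filter.1 hu).1).2
        have hfv : f v = i := (mem_filter.1 (mem_sdiff.1 hv).1).2
        rcases h.1 with ⟨h₁, h₂⟩ | ⟨h₁, h₂⟩
        · rw [h₁, h₂]; exact ⟨hw, hfu.trans hfv.symm⟩
        · rw [h₁, h₂]; exact ⟨hsym u v ▸ hw, hfv.trans hfu.symm⟩
    · intro x
      by_cases hxu : x = u
      · subst hxu
        refine le_trans (Finset.card_le_card (t := insert v (univ.filter fun y => F.Adj x y)) ?_) ?_
        · intro y hy
          simp only [mem_filter, mem_univ, true_and, sup_adj, edge_adj] at hy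
          simp only [mem_insert, mem_filter, mem_univ, true_and]
          tauto
        · exact (Finset.card_insert_le _ _).trans hdu
      · by_cases hxv : x = v
        · subst hxv
          refine le_trans (Finset.card_le_card (t := insert u (univ.filter fun y => F.Adj x y)) ?_) ?_
          · intro y hy
            simp only [mem_filter, mem_univ, true_and, sup_adj, edge_adj] at hy
            simp only [mem_insert, mem_filter, mem_univ, true_and]
            tauto
          · exact (Finset.card_insert_le _ _).trans hdv
        · refine le_trans (Finset.card_le_card ?_) (hF.2.2 x)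
          intro y hy
          simp only [mem_filter, mem_univ, true_and, sup_adj, edge_adj] at hy ⊢
          tauto
  have := hFmax hP le_sup_left
  exact huv ((this (Or.inr (by rw [edge_adj]; exact ⟨Or.inl ⟨rfl, rfl⟩, hne⟩))).reachable)

theorem reachable_induce {F : SimpleGraph V} {f : V → V} (hF : ∀ u v, F.Adj u v → f u = f v)
    (i : V) {u v : V} (h : F.Reachable u v) :
    ∀ (hu : u ∈ {x | f x = i}), ∃ hv : v ∈ {x | f x = i},
      (F.induce {x | f x = i}).Reachable ⟨u, hu⟩ ⟨v, hv⟩ := by
  obtain ⟨p⟩ := h
  induction p with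
  | nil => exact fun hu => ⟨hu, Reachable.refl _⟩
  | cons hadj p ih =>
    intro hu
    have hx := (hF _ _ hadj).symm.trans hu
    obtain ⟨hv, hr⟩ := ih hx
    refine ⟨hv, (Adj.reachable ?_).trans hr⟩
    simpa using hadj

theorem card_le_edges_add_classes (F : SimpleGraph V) [DecidableRel F.Adj] (f : V → V)
    (hF : ∀ u v, F.Adj u v → f u = f v) (hcon : ∀ u v, f u = f v → F.Reachable u v) :
    Fintype.card V ≤ F.edgeFinset.card + (univ.image f).card := by
  classical
  have hi : ∀ i ∈ univ.image f,
      (cls f i).card ≤ (F.edgeFinset.filter fun e => ∀ x ∈ e, f x = i).card + 1 := by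
    intro i hi
    obtain ⟨a, -, ha⟩ := mem_image.1 hi
    let W : Set V := {x | f x = i}
    have hc : (F.induce W).Connected := by
      haveI : Nonempty W := ⟨⟨a, ha⟩⟩
      exact ⟨fun x y => (reachable_induce hF i (hcon x y (x.2.trans y.2.symm)) x.2).2⟩
    have h1 := hc.card_vert_le_card_edgeSet_add_one
    rw [Nat.card_eq_fintype_card, Nat.card_eq_fintype_card] at h1
    have h2 : Fintype.card W = (cls f i).card :=
      Fintype.card_of_subtype (cls f i) fun x => by simp [cls, W]
    have h3 : (F.induce W).edgeFinset.card ≤ (F.edgeFinset.filter fun e => ∀ x ∈ e, f x = i).card := by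
      refine Finset.card_le_card_of_injOn (Sym2.map Subtype.val) ?_
        (Sym2.map.injective Subtype.val_injective).injOn
      intro e he
      induction e using Sym2.ind with
      | h x y =>
        simp only [Finset.mem_coe, mem_edgeFinset, mem_edgeSet] at he
        simp only [Sym2.map_mk, Finset.mem_coe, mem_filter, mem_edgeFinset, mem_edgeSet]
        refine ⟨by simpa using he, fun z hz => ?_⟩
        rcases Sym2.mem_iff.1 hz with rfl | rfl
        · exact x.2
        · exact y.2
    rw [h2, ← edgeFinset_card] at h1
    omega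
  calc Fintype.card V = ∑ i ∈ univ.image f, (cls f i).card :=
        Finset.card_eq_sum_card_image f univ
    _ ≤ ∑ i ∈ univ.image f, ((F.edgeFinset.filter fun e => ∀ x ∈ e, f x = i).card + 1) :=
        Finset.sum_le_sum hi
    _ ≤ F.edgeFinset.card + (univ.image f).card := by
        rw [Finset.sum_add_distrib, Finset.sum_const, smul_eq_mul, mul_one]
        refine Nat.add_le_add_right ?_ _
        rw [← Finset.card_biUnion]
        · exact Finset.card_le_card (Finset.biUnion_subset.2 fun i _ => Finset.filter_subset _ _)
        · intro i _ j _ hij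
          rw [Function.onFun, Finset.disjoint_left]
          intro e he he'
          induction e using Sym2.ind with
          | h x y =>
            simp only [mem_filter] at he he'
            exact hij ((he.2 x (Sym2.mem_mk_left _ _)).symm.trans (he'.2 x (Sym2.mem_mk_left _ _)))

end Vale.Agent.P061Dense
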