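import Mathlib
import Vale.Agent.P061Dense.Forest

/-!
Thin spanning trees in dense multigraphs.
-/

namespace Vale.Agent.P061Dense

open Finset SimpleGraph

open scoped Classical

theorem exists_thin_tree {ε : ℝ} (hε : 0 < ε) :
    ∃ C : ℝ, ∀ (V : Type) [Fintype V] [DecidableEq V], 2 ≤ Fintype.card V →
      ∀ (μ k : ℕ) (w : V → V → ℕ), 1 ≤ k → (∀ u, w u u = 0) → (∀ u v, w u v = w v u) →
        (∀ u v, w u v ≤ μ) → (∀ u, ε * μ * Fintype.card V ≤ (∑ v, w u v : ℕ)) →
        (∀ S : Finset V, S.Nonempty → S ≠ univ → k ≤ ∑ u ∈ S, ∑ v ∈ Sᶜ, w u v) →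
        ∃ T : SimpleGraph V, T.IsTree ∧ (∀ u v, T.Adj u v → 0 < w u v) ∧
          ∀ S : Finset V, S.Nonempty → S ≠ univ →
            (((S ×ˢ Sᶜ).filter fun p => T.Adj p.1 p.2).card : ℝ)
              ≤ C / k * (∑ u ∈ S, ∑ v ∈ Sᶜ, w u v : ℕ) := by
  set D : ℕ := ⌊16 / ε⌋₊ + 1 with hD
  refine ⟨16 * D / ε ^ 2 + 2 / ε, ?_⟩
  intro V _ _ hV μ k w hk hdiag hsym hμ hdeg hcut
  set n : ℝ := (Fintype.card V : ℝ) with hn
  have hn0 : 0 < n := by
    have : 0 < Fintype.card V := by omega
    rw [hn]; exact_mod_cast this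
  obtain ⟨a₀⟩ : Nonempty V := Fintype.card_pos_iff.1 (by omega)
  -- degrees are at least `k`
  have hkdeg : k ≤ ∑ v, w a₀ v := by
    have h := hcut {a₀} (singleton_nonempty _) (fun h => by
      have := congrArg Finset.card h
      simp at this; omega)
    rw [Finset.sum_singleton] at h
    exact h.trans (Finset.sum_le_sum_of_subset (subset_univ _))
  have hkμn : (k : ℝ) ≤ μ * n := by
    have : (∑ v, w a₀ v) ≤ μ * Fintype.card V := by
      calc (∑ v, w a₀ v) ≤ ∑ _v : V, μ := Finset.sum_le_sum fun v _ => hμ a₀ v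
        _ = _ := by simp [mul_comm]
    rw [hn]; exact_mod_cast hkdeg.trans this
  have hk0 : (0 : ℝ) < k := by exact_mod_cast hk
  have hμ0 : (0 : ℝ) < μ := by
    by_contra h
    have : (μ : ℝ) * n ≤ 0 := mul_nonpos_of_nonpos_of_nonneg (not_lt.1 h) hn0.le
    linarith
  set β : ℝ := ε * μ / 4 with hβ
  have hβ0 : 0 < β := by positivity
  obtain ⟨f, hsplit, hmerge⟩ := exists_clusters w hsym β
  have hDβ : 4 * (μ : ℝ) < β * D := by
    have h1 : 16 / ε < (D : ℝ) := by
      rw [hD]; push_cast; exact Nat.lt_floor_add_one _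
    rw [div_lt_iff₀ hε] at h1
    have := mul_lt_mul_of_pos_left h1 hμ0
    rw [hβ]
    linarith
  obtain ⟨F, hFac, hFedge, hFdeg, hFcon⟩ := exists_cluster_forest w hsym hμ f hDβ hsplit
  let P : SimpleGraph V :=
    { Adj := fun u v => 0 < w u v
      symm := ⟨fun u v h => by rwa [hsym]⟩
      loopless := ⟨fun u h => by simp [hdiag] at h⟩ }
  have hPcon : P.Connected := by
    haveI : Nonempty V := ⟨a₀⟩
    refine ⟨fun x y => by_contra fun hxy => ?_⟩
    set R : Finset V := univ.filter fun z => P.Reachable x z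
    have h1 := hcut R ⟨x, by simp [R]⟩ (fun h => hxy (by
      have : y ∈ R := h ▸ mem_univ y
      simpa [R] using this))
    have h2 : ∑ u ∈ R, ∑ v ∈ Rᶜ, w u v = 0 := by
      refine Finset.sum_eq_zero fun u hu => Finset.sum_eq_zero fun v hv => ?_
      by_contra hne
      simp only [R, mem_filter, mem_univ, true_and, mem_compl] at hu hv
      exact hv (hu.trans (Adj.reachable (show P.Adj u v from Nat.pos_of_ne_zero hne)))
    omega
  obtain ⟨T, hFT, hTP, hT⟩ := hPcon.exists_isTree_le_of_le_of_isAcyclic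
    (show F ≤ P from fun u v h => (hFedge u v h).1) hFac
  refine ⟨T, hT, fun u v h => hTP h, fun S hS hSu => ?_⟩
  -- few classes
  set N := (univ.image f).card with hN
  have hbig : ∀ i ∈ univ.image f, ε * n < 2 * ((cls f i).card : ℝ) := by
    intro i hi
    obtain ⟨a, -, ha⟩ := mem_image.1 hi
    exact cls_large w f hμ hβ0.le (by rw [hβ]; linarith [mul_pos hε hμ0]) hdeg hmerge i
      ⟨a, by simp [cls, ha]⟩
  have hNb : (N : ℝ) ≤ 2 / ε := by
    have hsum : n = ∑ i ∈ univ.image f, ((cls f i).card : ℝ) := by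
      rw [hn]; exact_mod_cast Finset.card_eq_sum_card_image f univ
    have : (N : ℝ) * (ε * n) ≤ 2 * n := by
      calc (N : ℝ) * (ε * n) = ∑ _i ∈ univ.image f, ε * n := by rw [Finset.sum_const, nsmul_eq_mul]
        _ ≤ ∑ i ∈ univ.image f, 2 * ((cls f i).card : ℝ) :=
          Finset.sum_le_sum fun i hi => (hbig i hi).le
        _ = 2 * n := by rw [← Finset.mul_sum, ← hsum]
    rw [le_div_iff₀ hε]
    exact le_of_mul_le_mul_right (by linarith) hn0
  have hextra : T.edgeFinset.card ≤ F.edgeFinset.card + N := by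
    have h1 := card_le_edges_add_classes F f (fun u v h => (hFedge u v h).2) hFcon
    have h2 := hT.card_edgeFinset
    omega
  -- split the tree cut
  set cutT := (S ×ˢ Sᶜ).filter fun p => T.Adj p.1 p.2
  set cutF := (S ×ˢ Sᶜ).filter fun p => F.Adj p.1 p.2
  have hsub : cutF ⊆ cutT := by
    intro p hp
    simp only [cutF, cutT, mem_filter] at hp ⊢
    exact ⟨hp.1, hFT hp.2⟩
  have hTF : cutT.card ≤ cutF.card + N := by
    have h1 : (cutT \ cutF).card ≤ (T.edgeFinset \ F.edgeFinset).card := by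
      refine Finset.card_le_card_of_injOn (fun p => s(p.1, p.2)) ?_ ?_
      · intro p hp
        simp only [Finset.mem_coe, mem_sdiff, cutT, cutF, mem_filter] at hp
        simp only [Finset.mem_coe, mem_sdiff, mem_edgeFinset, mem_edgeSet]
        exact ⟨hp.1.2, fun h => hp.2 ⟨hp.1.1, h⟩⟩
      · intro p hp q hq hpq
        simp only [Finset.mem_coe, mem_sdiff, cutT, mem_filter, mem_product, mem_compl] at hp hq
        rcases Sym2.eq_iff.1 hpq with ⟨h1, h2⟩ | ⟨h1, h2⟩
        · exact Prod.ext h1 h2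
        · exact absurd (h1 ▸ hp.1.1.1) hq.1.1.2
    rw [Finset.card_sdiff_of_subset hsub,
      Finset.card_sdiff_of_subset (edgeFinset_mono hFT)] at h1
    omega
  -- classes
  let s : V → Finset V := fun i => S ∩ cls f i
  let t : V → Finset V := fun i => cls f i \ s i
  have ht : ∀ i, t i = Sᶜ ∩ cls f i := fun i => by
    ext x; simp only [t, s, mem_sdiff, mem_inter, mem_compl]; tauto
  have hSsum : ∀ g : V → ℝ, ∑ u ∈ S, g u = ∑ i ∈ univ.image f, ∑ u ∈ s i, g u := by
    intro g
    rw [← Finset.sum_fiberwise_of_maps_to (g := f) (t := univ.image f)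
      (fun x _ => mem_image_of_mem f (mem_univ x)) g]
    refine Finset.sum_congr rfl fun i _ => Finset.sum_congr ?_ fun _ _ => rfl
    ext x; simp [s, cls]
  have hFcut : (cutF.card : ℝ) ≤
      ∑ i ∈ univ.image f, (D : ℝ) * min ((s i).card : ℝ) ((t i).card) := by
    have e : (cutF.card : ℝ) =
        ∑ u ∈ S, ((Sᶜ.filter fun v => F.Adj u v).card : ℝ) := by
      simp only [cutF, Finset.card_filter, Finset.sum_product]
      push_cast
      rfl
    rw [e, hSsum]
    refine Finset.sum_le_sum fun i _ => ?_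
    have hfil : ∀ u ∈ s i, (Sᶜ.filter fun v => F.Adj u v) = (t i).filter fun v => F.Adj u v := by
      intro u hu
      ext v
      simp only [mem_filter, ht, mem_inter]
      constructor
      · rintro ⟨hv, huv⟩
        refine ⟨⟨hv, ?_⟩, huv⟩
        simp only [s, cls, mem_inter, mem_filter, mem_univ, true_and] at hu ⊢
        exact (hFedge u v huv).2.symm.trans hu.2
      · exact fun h => ⟨h.1.1, h.2⟩
    rw [mul_min_of_nonneg _ _ (Nat.cast_nonneg D)]
    refine le_min ?_ ?_
    · calc (∑ u ∈ s i, ((Sᶜ.filter fun v => F.Adj u v).card : ℝ))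
          ≤ ∑ _u ∈ s i, (D : ℝ) := Finset.sum_le_sum fun u _ => by
            exact_mod_cast (Finset.card_le_card (Finset.filter_subset_filter _ (subset_univ _))).trans
              (hFdeg u)
        _ = _ := by simp [mul_comm]
    · calc (∑ u ∈ s i, ((Sᶜ.filter fun v => F.Adj u v).card : ℝ))
          = ∑ v ∈ t i, (((s i).filter fun u => F.Adj v u).card : ℝ) := by
            rw [Finset.sum_congr rfl fun u hu => by rw [hfil u hu]]
            simp only [Finset.card_filter]
            push_cast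
            rw [Finset.sum_comm]
            simp only [F.adj_comm]
        _ ≤ ∑ _v ∈ t i, (D : ℝ) := Finset.sum_le_sum fun u _ => by
            exact_mod_cast (Finset.card_le_card (Finset.filter_subset_filter _ (subset_univ _))).trans
              (hFdeg u)
        _ = _ := by simp [mul_comm]
  have hGcut : (β * (ε * n / 4)) * ∑ i ∈ univ.image f, min ((s i).card : ℝ) ((t i).card) ≤
      ((∑ u ∈ S, ∑ v ∈ Sᶜ, w u v : ℕ) : ℝ) := by
    rw [Nat.cast_sum, hSsum, Finset.mul_sum]
    refine Finset.sum_le_sum fun i hi => ?_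
    have h1 : β * ((s i).card * (t i).card : ℝ) ≤ between w (s i) (t i) :=
      hsplit i (s i) inter_subset_right
    have h2 : (between w (s i) (t i) : ℝ) ≤ ∑ u ∈ s i, ((∑ v ∈ Sᶜ, w u v : ℕ) : ℝ) := by
      rw [between, Nat.cast_sum]
      refine Finset.sum_le_sum fun u _ => ?_
      exact_mod_cast Finset.sum_le_sum_of_subset (ht i ▸ inter_subset_left)
    refine le_trans ?_ (h1.trans h2)
    have h3 : ((cls f i).card : ℝ) = (s i).card + (t i).card := by
      have h4 := Finset.card_sdiff_add_card_eq_card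
        (show s i ⊆ cls f i from inter_subset_right)
      rw [← h4]
      push_cast
      exact add_comm _ _
    rw [mul_assoc]
    refine mul_le_mul_of_nonneg_left ?_ hβ0.le
    have h5 := hbig i hi
    rcases le_total ((s i).card : ℝ) ((t i).card) with h | h
    · rw [min_eq_left h, mul_comm]
      exact mul_le_mul_of_nonneg_left (by linarith) (Nat.cast_nonneg _)
    · rw [min_eq_right h]
      exact mul_le_mul_of_nonneg_right (by linarith) (Nat.cast_nonneg _)
  set W : ℝ := ((∑ u ∈ S, ∑ v ∈ Sᶜ, w u v : ℕ) : ℝ)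
  have hWk : (k : ℝ) ≤ W := by
    show (k : ℝ) ≤ ((∑ u ∈ S, ∑ v ∈ Sᶜ, w u v : ℕ) : ℝ)
    exact_mod_cast hcut S hS hSu
  set sm := ∑ i ∈ univ.image f, min ((s i).card : ℝ) ((t i).card)
  have hsm0 : 0 ≤ sm := Finset.sum_nonneg fun i _ =>
    le_min (Nat.cast_nonneg _) (Nat.cast_nonneg _)
  have hsm : ε ^ 2 * k / 16 * sm ≤ W := by
    refine le_trans (mul_le_mul_of_nonneg_right ?_ hsm0) hGcut
    rw [hβ, show ε * μ / 4 * (ε * n / 4) = ε ^ 2 * (μ * n) / 16 by ring]
    gcongr
  have h6 : (cutT.card : ℝ) ≤ D * sm + 2 / ε := by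
    have : (cutT.card : ℝ) ≤ cutF.card + N := by exact_mod_cast hTF
    rw [← Finset.mul_sum] at hFcut
    linarith
  refine h6.trans ?_
  have h7 : (D : ℝ) * sm ≤ 16 * D / ε ^ 2 / k * W := by
    have := mul_le_mul_of_nonneg_left hsm (show (0 : ℝ) ≤ 16 * D / ε ^ 2 / k by positivity)
    refine le_trans (le_of_eq ?_) this
    field_simp
  have h8 : 2 / ε ≤ 2 / ε / k * W := by
    rw [div_mul_eq_mul_div _ (k : ℝ), le_div_iff₀ hk0]
    exact mul_le_mul_of_nonneg_left hWk (by positivity)
  rw [add_div, add_mul]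
  exact add_le_add h7 h8

end Vale.Agent.P061Dense
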